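import Vale.Agent.P207.H266.FlwL
import Vale.Agent.P207.H266.FlwSub
import Vale.Agent.P207.H379.KatB
import Vale.Agent.P207.Kat.Spec

/-!
# P207, block PI: the geodesic flow on the ladder algebra of the frame bundle
-/

open scoped Manifold ContDiff ENNReal Topology
open Bundle MeasureTheory Set Filter Topology

noncomputable section

set_option maxSynthPendingDepth 3
set_option linter.unusedSectionVars false

namespace Vale.Agent.P207.H266

open Vale.Agent.P255 (RMetric coefIn Gam Riem innerAt)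
open Vale.Agent.P207 Vale.Agent.P207.Q Vale.Agent.P207.H442 Vale.Agent.P207.H662
  Vale.Agent.P207.H391 Vale.Agent.P207.H395 Vale.Agent.P207.H571 Vale.Agent.P207.H379

section Gen

variable {m : ℕ} {N : Type} [TopologicalSpace N] [CompactSpace N]
  [MeasurableSpace N] [BorelSpace N] {μ : Measure N} [IsFiniteMeasure μ]
  [T2Space N] [μ.WeaklyRegular] [μ.IsOpenPosMeasure]

/-- the scaled calculus of the frame bundle consists of derivations along the flows -/
def fitC {S : NSys (Fin (m + 1) ⊕ (Fin (m + 1) × Fin (m + 1))) N μ} {C : FrCalc (m + 1) S.A}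
    {c d : ℝ} (h : Rk1 C d) (hH : ∀ i f, C.H i f = c • S.X (.inl i) f)
    (hV : ∀ a b f, C.V a b f = S.X (.inr (a, b)) f) : FitC S h.sys c where
  x := .inl 0
  v i := .inr (i.succ, 0)
  h i := .inl i.succ
  r i j := .inr (i.succ, j.succ)
  hX := hH 0
  hv i := hV i.succ 0
  hh i := hH i.succ
  hr i j := hV i.succ j.succ

end Gen

section Kat

open Vale.Agent.P207.Kat

variable {n : ℕ} {M : Type} [TopologicalSpace M] [ChartedSpace (EV n) M]
  [IsManifold 𝓘(ℝ, EV n) ∞ M] [NeZero n] [CompactSpace M] [T2Space M] [MeasurableSpace M]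
  [BorelSpace M] {g : RMetric (EV n) M} [Nonempty (Fr g)]

/-- the calculus of the frame bundle and its system of flows -/
theorem cpt (D : Dat g) : Cpt D.S (frCalc g) where
  hor _ _ := rfl
  ver _ _ _ := rfl

/-- **the Casimir operator commutes with the frame flows** -/
theorem cas_flow (D : Dat g) (hP : (frCalc g).Par) (i : Fin n) (t : ℝ) (f : SmFr g) :
    (frCalc g).cas (UN D.S (.inl i) t f) = UN D.S (.inl i) t ((frCalc g).cas f) :=
  (cpt D).cas_UN hP i t f

/-- the flow of the system is the frame flow of H379 -/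
theorem UN_eq_flowE (D : Dat g) (t : ℝ) (f : SmFr g) :
    UN D.S (.inl 0) t f = flowE ((horFlows g).hor 0) t f := rfl

/-- the flow preserves the functions of the unit tangent bundle (group form) -/
theorem UN_scal (D : Dat g) (t : ℝ) {f : SmFr g} (hf : f ∈ (rotStab g).toRotAct.scal) :
    UN D.S (.inl 0) t f ∈ (rotStab g).toRotAct.scal :=
  flowE_scal ((horFlows g).hor 0) t hf

end Kat

section Kat1

open Vale.Agent.P207.Kat

variable {m : ℕ} {M : Type} [TopologicalSpace M] [ChartedSpace (EV (m + 1)) M]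
  [IsManifold 𝓘(ℝ, EV (m + 1)) ∞ M] [CompactSpace M] [T2Space M] [MeasurableSpace M]
  [BorelSpace M] {g : RMetric (EV (m + 1)) M} [Nonempty (Fr g)]

variable (D : Dat g) {C : FrCalc (m + 1) (SmFr g)} {c d : ℝ}

/-- the scaled calculus of `g` -/
def fitK (hH : ∀ i f, C.H i f = c • (frCalc g).H i f) (hV : ∀ a b f, C.V a b f =
    (frCalc g).V a b f) (h : Rk1 C d) : FitC D.S h.sys c :=
  fitC (S := D.S) h hH hV

/-- **the geodesic flow on the ladder algebra of a scaled calculus** -/
def flwK (hH : ∀ i f, C.H i f = c • (frCalc g).H i f) (hV : ∀ a b f, C.V a b f =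
    (frCalc g).V a b f) (h : Rk1 C d) (hc : c ≠ 0) (hI : C.IsInt D.I)
    (hp : ∀ f, 0 ≤ D.I (f * f)) : Flw (h.lad hI hp) :=
  (fitK D hH hV h).flw hc

variable (hH : ∀ i f, C.H i f = c • (frCalc g).H i f) (hV : ∀ a b f, C.V a b f =
    (frCalc g).V a b f) (h : Rk1 C d) (hc : c ≠ 0) (hI : C.IsInt D.I)
    (hp : ∀ f, 0 ≤ D.I (f * f))

/-- the flow is the composition with the frame flow at the time `c t` -/
theorem coe_flwK (t : ℝ) (f : h.sys.B) : (((flwK D hH hV h hc hI hp).U t f : h.sys.B) : SmFr g) =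
    flowE ((horFlows g).hor 0) (c * t) (f : SmFr g) := rfl

theorem flwK_scal (t : ℝ) {f : h.sys.B} (hf : (f : SmFr g) ∈ (rotStab g).toRotAct.scal) :
    (((flwK D hH hV h hc hI hp).U t f : h.sys.B) : SmFr g) ∈ (rotStab g).toRotAct.scal :=
  UN_scal D (c * t) hf

theorem flwK_Lam (t : ℝ) (f : h.sys.B) : (h.lad hI hp).Lam ((flwK D hH hV h hc hI hp).U t f) =
    (flwK D hH hV h hc hI hp).U t ((h.lad hI hp).Lam f) :=
  (fitK D hH hV h).Lam_U hc t f

theorem flwK_LamL (t : ℝ) (f : h.sys.B) : (h.lad hI hp).LamL ((flwK D hH hV h hc hI hp).U t f) =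
    (flwK D hH hV h hc hI hp).U t ((h.lad hI hp).LamL f) :=
  (fitK D hH hV h).LamL_U hc t f

include hH hV in
theorem ladK_definite (f : h.sys.B) (hf : (h.lad hI hp).ip f f = 0) : f = 0 :=
  (fitK D hH hV h).ip_definite hf

end Kat1

end Vale.Agent.P207.H266
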